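import Vale.Agent.P042.R2.H757.Spec

set_option autoImplicit false

namespace Vale.Agent.P042.H605

open Finset Vale.Agent.P042.H757

/-- completing `m` to a `k`-th power -/
theorem complete_pow (k : ℕ) (m : ℕ) (hm : m ≠ 0) :
    m * (∏ l ∈ m.primeFactors, l ^ (k - m.factorization l % k)) =
      (∏ l ∈ m.primeFactors, l ^ (m.factorization l / k + 1)) ^ k ∨ k = 0 := by
  rcases Nat.eq_zero_or_pos k with hk | hk
  · exact Or.inr hk
  left
  have hm' : m = ∏ l ∈ m.primeFactors, l ^ (m.factorization l) :=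
    (Nat.prod_factorization_pow_eq_self hm).symm
  have h1 : m * (∏ l ∈ m.primeFactors, l ^ (k - m.factorization l % k)) =
      (∏ l ∈ m.primeFactors, l ^ (m.factorization l)) *
        (∏ l ∈ m.primeFactors, l ^ (k - m.factorization l % k)) := by
    rw [← hm']
  rw [h1, ← Finset.prod_mul_distrib, ← Finset.prod_pow]
  apply Finset.prod_congr rfl
  intro l _
  rw [← pow_add, ← pow_mul]
  congr 1
  have h2 := Nat.div_add_mod (m.factorization l) k
  have h3 := Nat.mod_lt (m.factorization l) hk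
  have h4 : (m.factorization l / k + 1) * k = k * (m.factorization l / k) + k := by ring
  omega

theorem rowAll (h : StPair) : StAll := by
  classical
  intro a k ha hk r col hcol
  let L : Fin r → ℕ := fun v =>
    if h : ∃ p : ℕ, p.Prime ∧ col p = v then Nat.find h else 1
  have hL1 : ∀ v, 1 ≤ L v := by
    intro v
    by_cases h : ∃ p : ℕ, p.Prime ∧ col p = v
    · simp only [L, dif_pos h]
      exact (Nat.find_spec h).1.one_lt.le
    · simp only [L, dif_neg h]; exact le_refl 1
  let D0 : ℕ := ∏ l ∈ (univ.image L), l ^ k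
  have hN : ∀ v, ∃ N0 : ℕ, Rich col v → ∀ N : ℕ, N0 ≤ N → ∀ D : ℕ, 1 ≤ D →
      ((a * 1 * D : ℕ) : ℝ) ≤ (N : ℝ) ^ (1 - (1 / 2 : ℝ)) →
      ∃ p q m : ℕ, p.Prime ∧ q.Prime ∧ col p = v ∧ col q = v ∧ 1 ≤ m ∧
        q = p + a * D * m ^ k ∧ q ≤ N := by
    intro v
    by_cases hv : Rich col v
    · obtain ⟨N0, hN0⟩ := h a k ha hk r col v hv (1 / 2) (by norm_num) (by norm_num)
      refine ⟨N0, fun _ N hN D hD hle => ?_⟩
      obtain ⟨p, q, m, h1, h2, h3, h4, _, _, h7, h8, h9⟩ := hN0 N hN 1 D le_rfl hD hle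
      exact ⟨p, q, m, h1, h2, h3, h4, h7, h8, by simpa using h9⟩
    · exact ⟨0, fun hv' => absurd hv' hv⟩
  choose N0 hN0 using hN
  have hF : ∀ v, ∃ B : ℕ, Few col v → ∀ p : ℕ, p.Prime → col p = v → p ≤ B := by
    intro v
    by_cases hv : Few col v
    · obtain ⟨B, hB⟩ := hv.bddAbove
      exact ⟨B, fun _ p hp hc => hB ⟨hp, hc⟩⟩
    · exact ⟨0, fun hv' => absurd hv' hv⟩
  choose B hB using hF
  let Y : ℕ := (∑ v, N0 v) + (a * D0) ^ 2
  refine ⟨Y + ∑ v, B v, ?_⟩
  intro N A hA hex hmf n hn q hq hqn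
  rcases hcol (col q) with hfew | hrich
  · have h1 := hB (col q) hfew q hq rfl
    have h2 : B (col q) ≤ ∑ v, B v :=
      Finset.single_le_sum (f := B) (fun _ _ => Nat.zero_le _) (mem_univ (col q))
    omega
  · by_contra hlt
    push Not at hlt
    obtain ⟨m1, rfl⟩ := hqn
    have hex' : ∃ m, m * q ∈ A := ⟨m1, by rwa [mul_comm]⟩
    obtain ⟨m, hm, hmin⟩ : ∃ m, m * q ∈ A ∧ ∀ m' < m, m' * q ∉ A :=
      ⟨Nat.find hex', Nat.find_spec hex', fun m' hm' => Nat.find_min hex' hm'⟩
    have hmN := Finset.mem_Icc.1 (hA hm)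
    have hm0 : m ≠ 0 := by
      rintro rfl
      simp at hmN
    -- all prime factors of `m` are the least of their colours
    have hleast : ∀ l ∈ m.primeFactors, l = L (col l) := by
      intro l hl
      have hlp := Nat.prime_of_mem_primeFactors hl
      have hld := Nat.dvd_of_mem_primeFactors hl
      have hexl : ∃ p : ℕ, p.Prime ∧ col p = col l := ⟨l, hlp, rfl⟩
      simp only [L, dif_pos hexl]
      obtain ⟨h1, h2⟩ := Nat.find_spec hexl
      have h3 : Nat.find hexl ≤ l := Nat.find_min' hexl ⟨hlp, rfl⟩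
      rcases h3.lt_or_eq with h4 | h4
      · exfalso
        obtain ⟨m2, rfl⟩ := hld
        have hm2 : 0 < m2 := Nat.pos_of_ne_zero (by rintro rfl; simp at hm0)
        have h5 : (m2 * q) * l ∈ A := by
          have : (m2 * q) * l = l * m2 * q := by ring
          rwa [this]
        have h6 : (m2 * q) * Nat.find hexl ≤ N := by
          have h7 : (m2 * q) * Nat.find hexl ≤ (m2 * q) * l := Nat.mul_le_mul_left _ h4.le
          have h8 : (m2 * q) * l ≤ N := (Finset.mem_Icc.1 (hA h5)).2
          exact h7.trans h8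
        have h9 := hex (m2 * q) l (Nat.find hexl) hlp h1 h2.symm h5 h6
        apply hmin (m2 * Nat.find hexl)
        · calc m2 * Nat.find hexl < m2 * l := Nat.mul_lt_mul_of_pos_left h4 hm2
            _ = l * m2 := mul_comm _ _
        · have : m2 * Nat.find hexl * q = m2 * q * Nat.find hexl := by ring
          rwa [this]
      · exact h4.symm
    let D : ℕ := ∏ l ∈ m.primeFactors, l ^ (k - m.factorization l % k)
    let w : ℕ := ∏ l ∈ m.primeFactors, l ^ (m.factorization l / k + 1)
    have hDw : m * D = w ^ k := by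
      rcases complete_pow k m hm0 with h1 | h1
      · exact h1
      · omega
    have hw1 : 1 ≤ w := by
      apply Nat.one_le_iff_ne_zero.2
      apply Finset.prod_ne_zero_iff.2
      intro l hl
      exact pow_ne_zero _ (Nat.prime_of_mem_primeFactors hl).ne_zero
    have hD1 : 1 ≤ D := by
      apply Nat.one_le_iff_ne_zero.2
      apply Finset.prod_ne_zero_iff.2
      intro l hl
      exact pow_ne_zero _ (Nat.prime_of_mem_primeFactors hl).ne_zero
    have hDD : D ≤ D0 := by
      calc D ≤ ∏ l ∈ m.primeFactors, l ^ k := by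
            apply Finset.prod_le_prod' 
            intro l hl
            exact Nat.pow_le_pow_right (Nat.prime_of_mem_primeFactors hl).pos (Nat.sub_le _ _)
        _ ≤ D0 := by
            apply Finset.prod_le_prod_of_subset_of_one_le'
            · intro l hl
              rw [hleast l hl]
              exact mem_image_of_mem _ (mem_univ _)
            · intro l hl _
              obtain ⟨v, _, rfl⟩ := mem_image.1 hl
              exact Nat.one_le_pow _ _ (hL1 v)
    have hYN : N0 (col q) ≤ Y := by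
      have h2 : N0 (col q) ≤ ∑ v, N0 v :=
        Finset.single_le_sum (f := N0) (fun _ _ => Nat.zero_le _) (mem_univ (col q))
      show N0 (col q) ≤ (∑ v, N0 v) + (a * D0) ^ 2
      omega
    have hYD : ((a * 1 * D : ℕ) : ℝ) ≤ (Y : ℝ) ^ (1 - (1 / 2 : ℝ)) := by
      have h1 : (1 - (1 / 2 : ℝ)) = 1 / 2 := by norm_num
      rw [h1, ← Real.sqrt_eq_rpow]
      apply Real.le_sqrt_of_sq_le
      have h2 : (a * 1 * D) ^ 2 ≤ Y := by
        have h3 : a * 1 * D ≤ a * D0 := by
          rw [mul_one]; exact Nat.mul_le_mul_left _ hDD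
        have h4 : (a * 1 * D) ^ 2 ≤ (a * D0) ^ 2 := Nat.pow_le_pow_left h3 2
        show (a * 1 * D) ^ 2 ≤ (∑ v, N0 v) + (a * D0) ^ 2
        omega
      exact_mod_cast h2
    obtain ⟨p, p', x, hp, hp', hc, hc', hx, hpp, hpY⟩ :=
      hN0 (col q) hrich Y hYN D hD1 hYD
    have hqY : Y < q := by omega
    have hlt1 : m * p' ≤ N := by
      calc m * p' ≤ m * q := Nat.mul_le_mul_left _ (by omega)
        _ ≤ N := hmN.2
    have hlt2 : m * p ≤ N := by
      have : p ≤ p' := by rw [hpp]; exact Nat.le_add_right _ _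
      exact (Nat.mul_le_mul_left _ this).trans hlt1
    have hA1 : m * p' ∈ A := hex m q p' hq hp' hc'.symm hm hlt1
    have hA2 : m * p ∈ A := hex m q p hq hp hc.symm hm hlt2
    apply hmf (m * p) hA2 (m * p') hA1 (w * x) (Nat.one_le_iff_ne_zero.2
      (Nat.mul_ne_zero (by omega) (by omega)))
    rw [hpp, mul_add, mul_pow, ← hDw]
    ring

end Vale.Agent.P042.H605
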