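import Vale.Agent.P042.R2.H757.SpecA
import Vale.Agent.P042.R2.H605.RowAll

set_option autoImplicit false

/-!
Row ALLU of P042.MultiplicativeStatistics (helper605).
-/

namespace Vale.Agent.P042.H605

open Finset Vale.Agent.P042.H757 Vale.Agent.P042.H757.U

/-- a rich set contains a small prime -/
theorem exists_of_richSet {c : ℝ} {x0 x1 : ℕ} {P : Set ℕ} (hP : RichSet c x0 P) (h : x0 ≤ x1)
    (h1 : 1 ≤ x1) : ∃ p, p ≤ x1 ∧ p.Prime ∧ p ∈ P := by
  have h2 := hP x1 h
  have h3 : (0 : ℝ) < (x1 : ℝ) * Real.exp (-(Real.log x1) ^ c) :=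
    mul_pos (by exact_mod_cast h1) (Real.exp_pos _)
  have h4 : (0 : ℝ) < ({p : ℕ | p ≤ x1 ∧ p.Prime ∧ p ∈ P}.ncard : ℝ) := h3.trans_le h2
  have h5 : {p : ℕ | p ≤ x1 ∧ p.Prime ∧ p ∈ P}.ncard ≠ 0 := by
    intro h0
    rw [h0] at h4
    simp at h4
  exact Set.nonempty_of_ncard_ne_zero h5

theorem rowAllU (h : StPairU) : StAllU := by
  classical
  intro a k ha hk c hc x0 t0
  obtain ⟨N0, hN0⟩ := h a k ha hk c hc x0 (1 / 2) (by norm_num) (by norm_num)
  let x1 : ℕ := max x0 1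
  let M : ℕ := max t0 x1
  let D0 : ℕ := ∏ l ∈ Icc 1 M, l ^ k
  let Y : ℕ := N0 + (a * D0) ^ 2
  refine ⟨Y + t0, ?_⟩
  intro T col hT hrich N A hA hex hmf n hn q hq hqn
  by_cases hqT : q ∈ T
  · have h1 := hT q hqT
    omega
  by_contra hlt
  push Not at hlt
  obtain ⟨m1, rfl⟩ := hqn
  have hex' : ∃ m, m * q ∈ A := ⟨m1, by rwa [mul_comm]⟩
  obtain ⟨m, hm, hmin⟩ : ∃ m, m * q ∈ A ∧ ∀ m' < m, m' * q ∉ A :=
    ⟨Nat.find hex', Nat.find_spec hex', fun m' hm' => Nat.find_min hex' hm'⟩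
  have hmN := Finset.mem_Icc.1 (hA hm)
  have hm0 : m ≠ 0 := by
    rintro rfl
    simp at hmN
  -- all prime factors of `m` are small
  have hsmall : ∀ l ∈ m.primeFactors, l ≤ M := by
    intro l hl
    have hlp := Nat.prime_of_mem_primeFactors hl
    have hld := Nat.dvd_of_mem_primeFactors hl
    by_cases hlT : l ∈ T
    · exact (hT l hlT).trans (le_max_left _ _)
    obtain ⟨q0, hq01, hq0p, hq0T, hq0c⟩ :=
      exists_of_richSet (hrich l hlp hlT) (le_max_left x0 1) (le_max_right x0 1)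
    by_contra hlM
    rw [not_le] at hlM
    have h4 : q0 < l := by
      have : x1 ≤ M := le_max_right _ _
      exact (hq01.trans this).trans_lt hlM
    obtain ⟨m2, rfl⟩ := hld
    have hm2 : 0 < m2 := Nat.pos_of_ne_zero (by rintro rfl; simp at hm0)
    have h5 : (m2 * q) * l ∈ A := by
      have : (m2 * q) * l = l * m2 * q := by ring
      rwa [this]
    have h6 : (m2 * q) * q0 ≤ N := by
      have h7 : (m2 * q) * q0 ≤ (m2 * q) * l := Nat.mul_le_mul_left _ h4.le
      have h8 : (m2 * q) * l ≤ N := (Finset.mem_Icc.1 (hA h5)).2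
      exact h7.trans h8
    have h9 := hex (m2 * q) l q0 hlp hq0p hlT hq0T hq0c.symm h5 h6
    apply hmin (m2 * q0)
    · calc m2 * q0 < m2 * l := Nat.mul_lt_mul_of_pos_left h4 hm2
        _ = l * m2 := mul_comm _ _
    · have : m2 * q0 * q = m2 * q * q0 := by ring
      rwa [this]
  let D : ℕ := ∏ l ∈ m.primeFactors, l ^ (k - m.factorization l % k)
  let w : ℕ := ∏ l ∈ m.primeFactors, l ^ (m.factorization l / k + 1)
  have hDw : m * D = w ^ k := by
    rcases complete_pow k m hm0 with h1 | h1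
    · exact h1
    · omega
  have hw1 : 1 ≤ w := by
    apply Nat.one_le_iff_ne_zero.2
    apply Finset.prod_ne_zero_iff.2
    intro l hl
    exact pow_ne_zero _ (Nat.prime_of_mem_primeFactors hl).ne_zero
  have hD1 : 1 ≤ D := by
    apply Nat.one_le_iff_ne_zero.2
    apply Finset.prod_ne_zero_iff.2
    intro l hl
    exact pow_ne_zero _ (Nat.prime_of_mem_primeFactors hl).ne_zero
  have hDD : D ≤ D0 := by
    calc D ≤ ∏ l ∈ m.primeFactors, l ^ k := by
          apply Finset.prod_le_prod'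
          intro l hl
          exact Nat.pow_le_pow_right (Nat.prime_of_mem_primeFactors hl).pos (Nat.sub_le _ _)
      _ ≤ D0 := by
          apply Finset.prod_le_prod_of_subset_of_one_le'
          · intro l hl
            exact Finset.mem_Icc.2 ⟨(Nat.prime_of_mem_primeFactors hl).one_lt.le, hsmall l hl⟩
          · intro l hl _
            exact Nat.one_le_pow _ _ (Finset.mem_Icc.1 hl).1
  have hYN : N0 ≤ Y := Nat.le_add_right _ _
  have hYD : ((a * 1 * D : ℕ) : ℝ) ≤ (Y : ℝ) ^ (1 - (1 / 2 : ℝ)) := by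
    have h1 : (1 - (1 / 2 : ℝ)) = 1 / 2 := by norm_num
    rw [h1, ← Real.sqrt_eq_rpow]
    apply Real.le_sqrt_of_sq_le
    have h2 : (a * 1 * D) ^ 2 ≤ Y := by
      have h3 : a * 1 * D ≤ a * D0 := by
        rw [mul_one]; exact Nat.mul_le_mul_left _ hDD
      have h4 : (a * 1 * D) ^ 2 ≤ (a * D0) ^ 2 := Nat.pow_le_pow_left h3 2
      exact h4.trans (Nat.le_add_left _ _)
    exact_mod_cast h2
  obtain ⟨p, p', x, hp, hp', hc, hc', _, _, hx, hpp, hpY⟩ :=
    hN0 (cls T col q) (hrich q hq hqT) Y hYN 1 D le_rfl hD1 hYD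
  rw [one_mul] at hpY
  have hqY : Y < q := by omega
  have hlt1 : m * p' ≤ N := by
    calc m * p' ≤ m * q := Nat.mul_le_mul_left _ (by omega)
      _ ≤ N := hmN.2
  have hlt2 : m * p ≤ N := by
    have : p ≤ p' := by rw [hpp]; exact Nat.le_add_right _ _
    exact (Nat.mul_le_mul_left _ this).trans hlt1
  have hA1 : m * p' ∈ A := hex m q p' hq hp' hqT hc'.1 hc'.2.symm hm hlt1
  have hA2 : m * p ∈ A := hex m q p hq hp hqT hc.1 hc.2.symm hm hlt2
  apply hmf (m * p) hA2 (m * p') hA1 (w * x) (Nat.one_le_iff_ne_zero.2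
    (Nat.mul_ne_zero (by omega) (by omega)))
  rw [hpp, mul_add, mul_pow, ← hDw]
  ring

end Vale.Agent.P042.H605
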